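import Vale.Agent.P158.Gen.Final

/-!
P158: almost surely no bigeodesic, for every atomless weight law on the half line, without any
moment assumption.
-/

open MeasureTheory

namespace Vale.Agent.Results.P158.NoBigeodesicGeneral

open Vale.Agent.P158

/-- For every atomless law of nonnegative weights, almost surely there is no bigeodesic. -/
theorem result (G : Measure ℝ) [IsProbabilityMeasure G] (hatom : ∀ x, G {x} = 0)
    (hsupp : G (Set.Ici 0) = 1) :
    ∀ᵐ t ∂law G, ¬ ∃ γ : ℤ → V, IsBigeodesic t γ :=
  Gen.noBigeodesicG ⟨inferInstance, hatom, hsupp⟩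

end Vale.Agent.Results.P158.NoBigeodesicGeneral
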